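import Vale.Agent.P336.R2.H746.CylSpec
import Vale.Agent.P336.R2.H444.LangP

/-!
# P336: the language of the circuits with cylinder gates is decided in polynomial time
-/

namespace Vale.Agent.P336.Cyl

open Finset Vale.Agent.Lib.PolyTime

theorem root_eq_sqrt (n : ℕ) : root n = Nat.sqrt n := by
  have h0 : root n = ((Finset.range n).filter fun i => (i + 1) * (i + 1) ≤ n).card := rfl
  have h1 : (Finset.range n).filter (fun i => (i + 1) * (i + 1) ≤ n) = Finset.range (Nat.sqrt n) := by
    ext i
    simp only [Finset.mem_filter, Finset.mem_range]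
    constructor
    · rintro ⟨-, h2⟩
      exact Nat.lt_of_succ_le (Nat.le_sqrt.2 h2)
    · intro h
      exact ⟨lt_of_lt_of_le h (Nat.sqrt_le_self n), Nat.le_sqrt.1 h⟩
  rw [h0, h1, Finset.card_range]

theorem root_mul_le (n : ℕ) : root n * root n ≤ n := by
  rw [root_eq_sqrt]
  exact Nat.sqrt_le n

theorem lt_root_succ (n : ℕ) : n < (root n + 1) * (root n + 1) := by
  rw [root_eq_sqrt]
  exact Nat.lt_succ_sqrt n

theorem root_le_self (n : ℕ) : root n ≤ n := by
  rw [root_eq_sqrt]
  exact Nat.sqrt_le_self n

section PT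

variable {A : Set Word} {α : Type*} [Enc α]

theorem PT_bitB {l : α → List Bool} {i : α → ℕ} (hl : PT A l) (hi : PT A i) :
    PT A (fun a => bit (l a) (i a)) :=
  PT.getD hl hi (PT.const false)

theorem PT_root {f : α → ℕ} (hf : PT A f) (hb : PBd f) : PT A (fun a => root (f a)) := by
  unfold root
  refine PT.length (PT.filter (f := fun a i => decide ((i + 1) * (i + 1) ≤ f a))
    (PT.range hf hb) ?_)
  exact PT.le (PT.mul (PT.succ PT.snd') (PT.succ PT.snd')) (hf.comp PT.fst')

theorem PBd_root {f : α → ℕ} (hb : PBd f) : PBd (fun a => root (f a)) :=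
  hb.mono fun a => root_le_self (f a)

theorem PT_step {w c : α → List Bool} {o r p v : α → ℕ} (hw : PT A w) (ho : PT A o)
    (hr : PT A r) (hrb : PBd r) (hp : PT A p) (hpb : PBd p) (hc : PT A c) (hv : PT A v) :
    PT A (fun a => step (w a) (o a) (r a) (p a) (c a) (v a)) := by
  unfold step
  refine PT.map (PT.range (PT.mul (PT.succ hp) hr) ((hpb.add (PBd.const 1)).mul hrb)) ?_
  have ha : PT A (fun q : α × ℕ => q.1) := PT.fst'
  have hi : PT A (fun q : α × ℕ => q.2) := PT.snd'
  have hr' := hr.comp ha
  exact PT.xor (PT_bitB (hc.comp ha) hi) (PT.and (PT.le hr' hi)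
    (PT.and (PT_bitB (hw.comp ha) (PT.add (ho.comp ha) (hv.comp ha)))
      (PT_bitB (hc.comp ha) (PT.add (PT.mul (PT.sub (PT.div hi hr') (PT.const 1)) hr')
        (PT.mod (PT.add (PT.mod hi hr') (PT.sub hr' (PT.mod (hv.comp ha) hr'))) hr')))))

theorem esize_step_le (w : List Bool) (o r p : ℕ) (c : List Bool) (v : ℕ) :
    esize (step w o r p c v) ≤ 3 * ((p + 1) * r) := by
  have h1 : esize (step w o r p c v) ≤ (step w o r p c v).length * (2 * 1 + 1) :=
    esize_list_le (B := 1) fun x _ => le_rfl
  have h2 : (step w o r p c v).length = (p + 1) * r := by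
    unfold step
    rw [List.length_map, List.length_range]
  omega

theorem esize_foldl_step_le (w : List Bool) (o r p : ℕ) (l : List ℕ) (c : List Bool) :
    esize (l.foldl (step w o r p) c) ≤ 3 * ((p + 1) * r) + esize c := by
  rcases List.eq_nil_or_concat l with rfl | ⟨l', i, rfl⟩
  · simp
  · rw [List.concat_eq_append, List.foldl_append, List.foldl_cons, List.foldl_nil]
    exact (esize_step_le _ _ _ _ _ _).trans (by omega)

theorem PT_table {w : α → List Bool} {o r p m : α → ℕ} (hw : PT A w) (ho : PT A o)
    (hr : PT A r) (hrb : PBd r) (hp : PT A p) (hpb : PBd p) (hm : PT A m) (hmb : PBd m) :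
    PT A (fun a => table (w a) (o a) (r a) (p a) (m a)) := by
  unfold table
  have ha : PT A (fun q : α × List Bool × ℕ => q.1) := PT.fst'
  refine PT.foldl (f := fun a => step (w a) (o a) (r a) (p a)) (PT.range hm hmb)
    (PT.const _) (PT_step (hw.comp ha) (ho.comp ha) (hr.comp ha) (hrb.comp ha) (hp.comp ha)
      (hpb.comp ha) PT.snd'.fst PT.snd'.snd) (b := fun a => 3 * ((p a + 1) * r a) + esize [true])
    (((PBd.const 3).mul ((hpb.add (PBd.const 1)).mul hrb)).add (PBd.const _))
    fun a i => esize_foldl_step_le _ _ _ _ _ _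

theorem PT_toNat {f : α → Bool} (hf : PT A f) : PT A (fun a => (f a).toNat) :=
  (hf.cond (PT.const 1) (PT.const 0)).congr fun a => by cases f a <;> rfl

theorem PT_valueAt {w : α → List Bool} {q p r : α → ℕ} (hw : PT A w) (hq : PT A q)
    (hp : PT A p) (hpb : PBd p) (hr : PT A r) (hrb : PBd r) :
    PT A (fun a => valueAt (w a) (q a) (p a) (r a)) := by
  unfold valueAt
  have hm : PT A (fun a => (w a).length - (2 * q a + r a)) :=
    PT.sub (PT.length hw) (PT.add (PT.mul (PT.const 2) hq) hr)
  have hmb : PBd (fun a => (w a).length - (2 * q a + r a)) :=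
    (PBd.length hw).mono fun a => Nat.sub_le _ _
  have ht := PT_table hw (PT.add (PT.mul (PT.const 2) hq) hr) hr hrb hp hpb hm hmb
  refine PT_sumRange hr hrb ?_
  have h1 : PT A (fun t : α × ℕ => t.1) := PT.fst'
  exact PT_toNat (PT.and
    (PT_bitB (hw.comp h1) (PT.add (PT.mul (PT.const 2) (hq.comp h1)) PT.snd'))
    (PT_bitB (ht.comp h1) (PT.add (PT.mul (hp.comp h1) (hr.comp h1)) PT.snd')))

theorem PT_value {w : α → List Bool} (hw : PT A w) : PT A (fun a => value (w a)) := by
  unfold value
  have hl : PT A (fun a => (w a).length) := PT.length hw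
  have hlb : PBd (fun a => (w a).length) := PBd.length hw
  have hq : PT A (fun a => root (w a).length) := PT_root hl hlb
  have hqb : PBd (fun a => root (w a).length) := PBd_root hlb
  have hp : PT A (fun a => ((w a).take (root (w a).length)).count true) :=
    Vale.Agent.P336.R2.H444.PT_count (PT.take hw hq)
  have hpb : PBd (fun a => ((w a).take (root (w a).length)).count true) :=
    hlb.mono fun a => List.count_le_length.trans (List.length_take_le' _ _)
  have hs : PT A (fun a => (((w a).drop (root (w a).length)).take (root (w a).length)).count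
      true) := Vale.Agent.P336.R2.H444.PT_count (PT.take (PT.drop hw hq) hq)
  have hsb : PBd (fun a => (((w a).drop (root (w a).length)).take (root (w a).length)).count
      true) := hlb.mono fun a => List.count_le_length.trans
        ((List.length_take_le' _ _).trans (by rw [List.length_drop]; exact Nat.sub_le _ _))
  exact PT_valueAt hw hq hp hpb (PT.mul hp (PT.mul hs hq)) (hpb.mul (hsb.mul hqb))

/-- Membership in the language is computable in polynomial time. -/
theorem PT_lang' {w : α → List Bool} (hw : PT A w) :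
    PT A (fun a => decide (value (w a) % 2 = 1)) :=
  PT.odd (PT_value hw)

end PT

/-- The language is decided in polynomial time. -/
theorem inP_lang : InP lang := by
  have h : PT ∅ (fun w : Raw => decide (value w.w % 2 = 1)) :=
    PT_lang' (PT.listOfRaw PT.id)
  obtain ⟨g, hg, h⟩ := h
  have h2 : ∃ M : Turing.TM2ComputableInPolyTime (id : List Bool → List Bool)
      Computability.encodeBool (fun w => decide (value w % 2 = 1)),
      ∀ k, Finite (M.tm.Γ k) := by
    refine exists_tm2_of_polyTimeFun _ _ _ g (polyTimeFun_iff.2 hg) fun w => ?_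
    exact h (Raw.mk w)
  unfold InP
  have h3 : (fun w => @decide (w ∈ lang) (Classical.propDecidable _)) =
      fun w => decide (value w % 2 = 1) := by
    funext w
    rw [decide_eq_decide]
    rfl
  rw [h3]
  exact h2

end Vale.Agent.P336.Cyl
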